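import Vale.Agent.P147.Bal.Basic

/-!
# Fresh levels with few visits are rare when the walk cannot stay on one side

If the probability of staying in the levels `≥ 0` for `n` steps tends to zero then, uniformly in the
past, the walk arriving at a fresh level `m` is unlikely to visit it at most `K` times before it
reaches `m + L`, for `L` large (an argument in the spirit of Zerner 2002). The rows of a bounded
number of fresh steps only change probabilities by a bounded factor.
-/

open MeasureTheory Set Filter Topology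
open scoped ENNReal

namespace Vale.Agent.P147.Bal

open Vale.Agent.P147.Proj (dsp verts wt trail iid DepOn)

variable {d : ℕ} {e : Step d} {μ : Measure (Row d)}

/-- A path from `x` which first arrives at the level `T` at its end. -/
def Hit1 (e : Step d) (T : ℤ) (x : Site d) (γ : List (Step d)) : Prop :=
  (∀ v ∈ verts x γ, lev e v < T) ∧ lev e (x + dsp γ) = T

/-- A path from `x` in the levels `≥ m`, the end included. -/
def Stay (e : Step d) (m : ℤ) (x : Site d) (γ : List (Step d)) : Prop :=
  (∀ v ∈ verts x γ, m ≤ lev e v) ∧ m ≤ lev e (x + dsp γ)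

open Classical in
/-- The probability of staying in the levels `≥ 0` for `n` steps. -/
noncomputable def stayMass (μ : Measure (Row d)) (e : Step d) (n : ℕ) : ℝ≥0∞ :=
  ∑' γ, if γ.length = n ∧ Stay e 0 0 γ then cw μ γ else 0

/-- The number of steps taken from the levels `≥ m`. -/
def cntHi (e : Step d) (m : ℤ) (x : Site d) (γ : List (Step d)) : ℕ :=
  (verts x γ).countP fun v => decide (m ≤ lev e v)

/-- The number of steps taken from the level `m`. -/
def cntAt (e : Step d) (m : ℤ) (x : Site d) (γ : List (Step d)) : ℕ :=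
  (verts x γ).countP fun v => decide (lev e v = m)

lemma cntHi_append (m : ℤ) (x : Site d) (γ δ : List (Step d)) :
    cntHi e m x (γ ++ δ) = cntHi e m x γ + cntHi e m (x + dsp γ) δ := by
  simp [cntHi, verts_append, List.countP_append]

lemma cntAt_append (m : ℤ) (x : Site d) (γ δ : List (Step d)) :
    cntAt e m x (γ ++ δ) = cntAt e m x γ + cntAt e m (x + dsp γ) δ := by
  simp [cntAt, verts_append, List.countP_append]

lemma cntAt_cons_self {m : ℤ} {x : Site d} {a : Step d} {γ : List (Step d)} (h : lev e x = m) :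
    cntAt e m x (a :: γ) = cntAt e m (x + vec a) γ + 1 := by
  simp [cntAt, verts, List.countP_cons, h]

lemma cntHi_le_length (m : ℤ) (x : Site d) (γ : List (Step d)) : cntHi e m x γ ≤ γ.length :=
  List.countP_le_length.trans (Proj.verts_length x γ).le

lemma cntHi_eq_zero {m : ℤ} {x : Site d} {γ : List (Step d)}
    (h : ∀ v ∈ verts x γ, lev e v < m) : cntHi e m x γ = 0 := by
  rw [cntHi, List.countP_eq_zero]
  intro v hv
  simp [h v hv]

lemma hit1_prefix_free {T : ℤ} {x : Site d} {γ δ : List (Step d)} (h : Hit1 e T x γ)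
    (h' : Hit1 e T x (γ ++ δ)) : δ = [] := by
  by_contra hne
  have hm : x + dsp γ ∈ verts x (γ ++ δ) := by
    rw [verts_append]
    exact List.mem_append_right _ (self_mem_verts _ hne)
  exact absurd h.2 (h'.1 _ hm).ne

/-- First descent to a lower level. -/
lemma exists_descend (γ : List (Step d)) {t : ℤ} :
    ∀ x : Site d, t ≤ lev e x → (∃ v ∈ verts x γ ++ [x + dsp γ], lev e v ≤ t) →
      ∃ η δ, γ = η ++ δ ∧ (∀ v ∈ verts x η, t < lev e v) ∧ lev e (x + dsp η) = t := by
  induction γ with
  | nil =>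
    intro x h1 h2
    refine ⟨[], [], rfl, by simp [verts], ?_⟩
    simp [verts] at h2 ⊢
    omega
  | cons a γ ih =>
    intro x h1 h2
    rcases h1.eq_or_lt with h | h
    · exact ⟨[], a :: γ, rfl, by simp [verts], by simpa using h.symm⟩
    obtain ⟨η, δ, rfl, h3, h4⟩ := ih (x + vec a)
      (by have := abs_le.1 (abs_lev_vec_le e a); rw [lev_add]; omega)
      (by
        obtain ⟨v, hv, hvt⟩ := h2
        refine ⟨v, ?_, hvt⟩
        simp only [verts, List.cons_append, List.mem_cons, Proj.dsp_cons] at hv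
        rcases hv with rfl | hv
        · omega
        · simpa [add_assoc] using hv)
    exact ⟨a :: η, δ, rfl, by simpa [verts] using ⟨h, h3⟩, by simpa [add_assoc] using h4⟩

lemma abs_lev_dsp_le (γ : List (Step d)) : |lev e (dsp γ)| ≤ γ.length := by
  induction γ with
  | nil => simp
  | cons a γ ih =>
    rw [Proj.dsp_cons, lev_add, List.length_cons, Nat.cast_succ]
    have h1 := abs_le.1 (abs_lev_vec_le e a)
    have h2 := abs_le.1 ih
    rw [abs_le]
    omega

/-! ## The rows of the low and of the high levels -/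

/-- The weights of the steps from the levels `< m`. -/
noncomputable def loW (e : Step d) (m : ℤ) (ω : Env d) : Site d → List (Step d) → ℝ≥0∞
  | _, [] => 1
  | x, a :: γ => (if m ≤ lev e x then 1 else pq (ω x) a) * loW e m ω (x + vec a) γ

/-- The weights of the steps from the levels `≥ m`. -/
noncomputable def hiW (e : Step d) (m : ℤ) (ω : Env d) : Site d → List (Step d) → ℝ≥0∞
  | _, [] => 1
  | x, a :: γ => (if m ≤ lev e x then pq (ω x) a else 1) * hiW e m ω (x + vec a) γ

lemma pq_le_one (q : Row d) (a : Step d) : pq q a ≤ 1 := by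
  rw [← sum_pq q]
  exact Finset.single_le_sum (fun _ _ => zero_le) (Finset.mem_univ a)

lemma loW_mul_hiW (m : ℤ) (ω : Env d) (γ : List (Step d)) :
    ∀ x, loW e m ω x γ * hiW e m ω x γ = pw ω x γ := by
  induction γ with
  | nil => intro x; simp [loW, hiW, pw, wt]
  | cons a γ ih =>
    intro x
    simp only [loW, hiW, pw, wt]
    rw [mul_mul_mul_comm, ih, pw]
    split_ifs <;> simp

lemma hiW_le_one (m : ℤ) (ω : Env d) (γ : List (Step d)) : ∀ x, hiW e m ω x γ ≤ 1 := by
  induction γ with
  | nil => intro x; simp [hiW]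
  | cons a γ ih =>
    intro x
    refine mul_le_one₀ ?_ zero_le (ih _)
    split_ifs
    · exact pq_le_one _ _
    · exact le_rfl

lemma measurable_loW (m : ℤ) (γ : List (Step d)) : ∀ x, Measurable fun ω => loW e m ω x γ := by
  induction γ with
  | nil => intro x; exact measurable_const
  | cons a γ ih =>
    intro x
    refine Measurable.mul ?_ (ih _)
    by_cases h : m ≤ lev e x
    · simp only [if_pos h]; exact measurable_const
    · simp only [if_neg h]; exact (measurable_pq a).comp (measurable_pi_apply x)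

lemma measurable_hiW (m : ℤ) (γ : List (Step d)) : ∀ x, Measurable fun ω => hiW e m ω x γ := by
  induction γ with
  | nil => intro x; exact measurable_const
  | cons a γ ih =>
    intro x
    refine Measurable.mul ?_ (ih _)
    by_cases h : m ≤ lev e x
    · simp only [if_pos h]; exact (measurable_pq a).comp (measurable_pi_apply x)
    · simp only [if_neg h]; exact measurable_const

lemma loW_congr (m : ℤ) {ω ω' : Env d} (γ : List (Step d)) :
    ∀ x, (∀ v ∈ verts x γ, lev e v < m → ω v = ω' v) → loW e m ω x γ = loW e m ω' x γ := by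
  induction γ with
  | nil => intro x _; rfl
  | cons a γ ih =>
    intro x h
    simp only [verts, List.mem_cons, forall_eq_or_imp] at h
    simp only [loW, ih _ h.2]
    by_cases hx : m ≤ lev e x
    · simp [hx]
    · rw [h.1 (not_le.1 hx)]

lemma hiW_congr (m : ℤ) {ω ω' : Env d} (γ : List (Step d)) :
    ∀ x, (∀ v ∈ verts x γ, m ≤ lev e v → ω v = ω' v) → hiW e m ω x γ = hiW e m ω' x γ := by
  induction γ with
  | nil => intro x _; rfl
  | cons a γ ih =>
    intro x h
    simp only [verts, List.mem_cons, forall_eq_or_imp] at h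
    simp only [hiW, ih _ h.2]
    by_cases hx : m ≤ lev e x
    · rw [h.1 hx]
    · simp [hx]

lemma le_hiW (m : ℤ) {ω : Env d} {η : ℝ≥0∞} (γ : List (Step d)) :
    ∀ x, (∀ v ∈ verts x γ, m ≤ lev e v → ∀ a, η ≤ pq (ω v) a) →
      η ^ cntHi e m x γ ≤ hiW e m ω x γ := by
  induction γ with
  | nil => intro x _; simp [cntHi, verts, hiW]
  | cons a γ ih =>
    intro x h
    simp only [verts, List.mem_cons, forall_eq_or_imp] at h
    by_cases hx : m ≤ lev e x
    · have e1 : cntHi e m x (a :: γ) = cntHi e m (x + vec a) γ + 1 := by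
        simp [cntHi, verts, List.countP_cons, hx]
      rw [e1, pow_succ', hiW, if_pos hx]
      exact mul_le_mul' (h.1 hx a) (ih _ h.2)
    · have e1 : cntHi e m x (a :: γ) = cntHi e m (x + vec a) γ := by
        simp [cntHi, verts, List.countP_cons, hx]
      rw [e1, hiW, if_neg hx, one_mul]
      exact ih _ h.2

variable [IsProbabilityMeasure μ]

/-- A bounded number of fresh steps has weight bounded below. -/
lemma exists_hiW_lb (hell : ∀ᵐ q ∂μ, ∀ a : Step d, 0 < q.1 a) (k : ℕ) :
    ∃ c : ℝ≥0∞, c ≠ 0 ∧ c ≤ 1 ∧ ∀ (m : ℤ) (x : Site d) (γ : List (Step d)),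
      cntHi e m x γ ≤ k → c ≤ ∫⁻ ω, hiW e m ω x γ ∂iid μ := by
  classical
  set G : ℕ → Set (Row d) := fun n =>
    {q | ∀ a, ((n : ℝ≥0∞) + 1)⁻¹ ≤ pq q a}
  have hGm : ∀ n, MeasurableSet (G n) := fun n => by
    simp only [G, Set.setOf_forall]
    exact MeasurableSet.iInter fun a => measurableSet_le measurable_const (measurable_pq a)
  obtain ⟨n, hn⟩ : ∃ n, μ (G n) ≠ 0 := by
    by_contra h
    push Not at h
    have h1 : ∀ᵐ q ∂μ, ∀ n, q ∉ G n :=
      ae_all_iff.2 fun n => measure_eq_zero_iff_ae_notMem.1 (h n)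
    obtain ⟨q, hq, hq2⟩ := (hell.and h1).exists
    have h2 : ∀ a, ∃ n : ℕ, ((n : ℝ≥0∞) + 1)⁻¹ ≤ pq q a := by
      intro a
      obtain ⟨n, hn⟩ := ENNReal.exists_inv_nat_lt
        (show pq q a ≠ 0 by simpa [pq] using hq a)
      exact ⟨n, (ENNReal.inv_le_inv.2 le_self_add).trans hn.le⟩
    choose N hN using h2
    refine hq2 (Finset.univ.sup N) fun a => (ENNReal.inv_le_inv.2 ?_).trans (hN a)
    gcongr
    exact Finset.le_sup (Finset.mem_univ a)
  set η : ℝ≥0∞ := ((n : ℝ≥0∞) + 1)⁻¹
  have hη0 : η ≠ 0 := ENNReal.inv_ne_zero.2 (by simp)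
  have hη1 : η ≤ 1 := ENNReal.inv_le_one.2 le_add_self
  refine ⟨η ^ k * μ (G n) ^ k, mul_ne_zero (pow_ne_zero _ hη0) (pow_ne_zero _ hn),
    mul_le_one₀ (pow_le_one₀ zero_le hη1) zero_le
      (pow_le_one₀ zero_le prob_le_one), fun m x γ hk => ?_⟩
  set T : Finset (Site d) := ((verts x γ).filter fun v => decide (m ≤ lev e v)).toFinset
  have hT : T.card ≤ k := (List.toFinset_card_le _).trans (by
    rw [← List.countP_eq_length_filter]; exact hk)
  have hTm : MeasurableSet ((T : Set (Site d)).pi fun _ => G n) :=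
    MeasurableSet.pi T.countable_toSet fun _ _ => hGm n
  calc η ^ k * μ (G n) ^ k ≤ η ^ k * iid μ ((T : Set (Site d)).pi fun _ => G n) := by
        rw [Measure.infinitePi_pi _ fun _ _ => hGm n, Finset.prod_const]
        exact mul_le_mul_right (pow_le_pow_of_le_one zero_le prob_le_one hT) _
    _ = ∫⁻ ω in ((T : Set (Site d)).pi fun _ => G n), η ^ k ∂iid μ := by
        rw [setLIntegral_const]
    _ ≤ ∫⁻ ω in ((T : Set (Site d)).pi fun _ => G n), hiW e m ω x γ ∂iid μ := by
        refine setLIntegral_mono (measurable_hiW m γ x) fun ω hω => ?_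
        refine (pow_le_pow_of_le_one zero_le hη1 hk).trans (le_hiW m γ x fun v hv hm a => ?_)
        exact hω v (by simp [T, hv, hm]) a
    _ ≤ _ := setLIntegral_le_lintegral _ _

omit [IsProbabilityMeasure μ] in
/-- Exchange of the sum over step lists with the integral. -/
lemma tsum_lintegral_eq {F : Env d → ℝ≥0∞} (hF : Measurable F) (x : Site d)
    (S : Set (List (Step d))) :
    ∑' γ, S.indicator (fun γ => ∫⁻ ω, F ω * pw ω x γ ∂iid μ) γ
      = ∫⁻ ω, F ω * ∑' γ, S.indicator (pw ω x) γ ∂iid μ := by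
  simp only [← ENNReal.tsum_mul_left]
  rw [lintegral_tsum fun γ => ?_]
  · refine tsum_congr fun γ => ?_
    by_cases h : γ ∈ S <;> simp [h]
  · by_cases h : γ ∈ S
    · simp only [indicator_of_mem h]
      exact (hF.mul (measurable_pw x γ)).aemeasurable
    · simpa [h] using aemeasurable_const

omit [IsProbabilityMeasure μ] in
lemma tsum_free_le {F : Env d → ℝ≥0∞} (hF : Measurable F) (x : Site d)
    (S : Set (List (Step d))) (hS : ∀ γ δ, γ ∈ S → γ ++ δ ∈ S → δ = []) :
    ∑' γ, S.indicator (fun γ => ∫⁻ ω, F ω * pw ω x γ ∂iid μ) γ ≤ ∫⁻ ω, F ω ∂iid μ := by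
  rw [tsum_lintegral_eq hF]
  exact lintegral_mono fun ω => mul_le_of_le_one_right zero_le (tsum_pw_le_one S hS ω x)

/-- The sum over free extensions of the lists in `A`. -/
lemma tsum_cut_le {F : Env d → ℝ≥0∞} (hF : Measurable F) (x : Site d)
    (S A : Set (List (Step d))) (hS : ∀ γ δ, γ ∈ S → γ ++ δ ∈ S → δ = [])
    (hA : ∀ γ ∈ S, ∃ η δ, γ = η ++ δ ∧ η ∈ A) :
    ∑' γ, S.indicator (fun γ => ∫⁻ ω, F ω * pw ω x γ ∂iid μ) γ
      ≤ ∑' η, A.indicator (fun η => ∫⁻ ω, F ω * pw ω x η ∂iid μ) η := by
  classical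
  rw [tsum_lintegral_eq hF, tsum_lintegral_eq hF]
  refine lintegral_mono fun ω => mul_le_mul_right ?_ _
  refine (Proj.tsum_le_split _
    (fun z => if z.1 ∈ A then S.indicator (pw ω x) (z.1 ++ z.2) else 0) fun γ hγ => ?_).trans ?_
  · have hm : γ ∈ S := by
      by_contra h
      exact hγ (indicator_of_notMem h _)
    obtain ⟨η, δ, rfl, hη⟩ := hA γ hm
    exact ⟨η, δ, rfl, by simp [hη]⟩
  rw [ENNReal.tsum_prod']
  refine ENNReal.tsum_le_tsum fun η => ?_
  by_cases h : η ∈ A
  · simp only [if_pos h, indicator_of_mem h]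
    exact tsum_ext_le S hS ω x η
  · simp [h]

lemma tsum_stay_le (m : ℤ) {z : Site d} (hz : lev e z = m) (n : ℕ) :
    (open Classical in ∑' ρ, if ρ.length = n ∧ Stay e m z ρ then cw μ ρ else 0)
      = stayMass μ e n := by
  classical
  refine tsum_congr fun ρ => ?_
  have hiff : Stay e m z ρ ↔ Stay e 0 0 ρ := by
    have hv : ∀ v, v ∈ verts z ρ ↔ v - z ∈ verts 0 ρ := fun v => by
      simpa using mem_verts_shift (x := (0 : Site d)) (z := z) (v := v) (γ := ρ)
    constructor
    · intro h
      refine ⟨fun v hm => ?_, ?_⟩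
      · have := h.1 (v + z) ((hv _).2 (by simpa using hm))
        rw [lev_add] at this
        omega
      · have := h.2
        rw [lev_add] at this
        rw [zero_add]
        omega
    · intro h
      refine ⟨fun v hm => ?_, ?_⟩
      · have := h.1 _ ((hv _).1 hm)
        rw [lev_sub] at this
        omega
      · have := h.2
        rw [zero_add] at this
        rw [lev_add]
        omega
  simp only [hiff]

open Classical in
/-- A long stay above after a bounded number of fresh steps. -/
lemma tsum_long_le {F : Env d → ℝ≥0∞} (hF : Measurable F) {S : Finset (Site d)}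
    (hFS : DepOn F S) {m : ℤ} (hS : ∀ v ∈ S, lev e v < m) (x : Site d) (η : List (Step d))
    (hη : lev e (x + dsp η) = m + 1) (n : ℕ) {c : ℝ≥0∞}
    (hc : c ≤ ∫⁻ ω, hiW e m ω x η ∂iid μ) :
    c * ∑' ρ, (if ρ.length = n ∧ Stay e (m + 1) (x + dsp η) ρ then
        ∫⁻ ω, F ω * pw ω x (η ++ ρ) ∂iid μ else 0)
      ≤ stayMass μ e n * ∫⁻ ω, F ω * pw ω x η ∂iid μ := by
  set z := x + dsp η
  set Sl : Finset (Site d) := S ∪ (verts x η).toFinset.filter fun v => lev e v < m
  set Sh : List (Step d) → Finset (Site d) := fun ρ =>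
    ((verts x η).toFinset.filter fun v => m ≤ lev e v) ∪ (verts z ρ).toFinset
  have hlm : Measurable fun ω => F ω * loW e m ω x η := hF.mul (measurable_loW m η x)
  have hld : DepOn (fun ω => F ω * loW e m ω x η) Sl := fun ω ω' h => by
    simp only
    rw [hFS ω ω' fun v hv => h v (Finset.mem_union_left _ hv),
      loW_congr (ω' := ω') m η x fun v hv hlt => h v (Finset.mem_union_right _ (by simp [hv, hlt]))]
  have hsplit : ∀ ρ, Stay e (m + 1) z ρ → ∫⁻ ω, F ω * pw ω x (η ++ ρ) ∂iid μ =
      (∫⁻ ω, F ω * loW e m ω x η ∂iid μ) * ∫⁻ ω, hiW e m ω x η * pw ω z ρ ∂iid μ := by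
    intro ρ hρ
    have hd : DepOn (fun ω => hiW e m ω x η * pw ω z ρ) (Sh ρ) := fun ω ω' h => by
      simp only [pw]
      rw [hiW_congr (ω' := ω') m η x fun v hv hle => h v (Finset.mem_union_left _ (by simp [hv, hle])),
        Proj.wt_congr _ z ρ (ω' := ω') fun v hv => h v (Finset.mem_union_right _ (by simp [hv]))]
    rw [← Proj.lintegral_mul_disjoint μ (g := fun ω => hiW e m ω x η * pw ω z ρ) hlm
      ((measurable_hiW m η x).mul (measurable_pw z ρ)) hld hd]
    · refine lintegral_congr fun ω => ?_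
      rw [pw_append, ← loW_mul_hiW (e := e) m ω η x]
      ring
    · refine Finset.disjoint_left.2 fun v hv hv' => ?_
      have h1 : lev e v < m := by
        rcases Finset.mem_union.1 hv with h | h
        · exact hS v h
        · exact (Finset.mem_filter.1 h).2
      rcases Finset.mem_union.1 hv' with h | h
      · have := (Finset.mem_filter.1 h).2
        omega
      · have := hρ.1 v (List.mem_toFinset.1 h)
        omega
  have hwhole : ∫⁻ ω, F ω * pw ω x η ∂iid μ =
      (∫⁻ ω, F ω * loW e m ω x η ∂iid μ) * ∫⁻ ω, hiW e m ω x η ∂iid μ := by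
    rw [← Proj.lintegral_mul_disjoint μ hlm (measurable_hiW m η x) hld
      (T := (verts x η).toFinset.filter fun v => m ≤ lev e v)
      (fun ω ω' h => hiW_congr m η x fun v hv hle => h v (by simp [hv, hle]))
      (Finset.disjoint_left.2 fun v hv hv' => by
        have h2 := (Finset.mem_filter.1 hv').2
        rcases Finset.mem_union.1 hv with h | h
        · have := hS v h; omega
        · have := (Finset.mem_filter.1 h).2; omega)]
    refine lintegral_congr fun ω => ?_
    rw [mul_assoc, loW_mul_hiW]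
  rw [hwhole]
  set A := ∫⁻ ω, F ω * loW e m ω x η ∂iid μ
  have hsum : ∑' ρ, (if ρ.length = n ∧ Stay e (m + 1) z ρ then
      ∫⁻ ω, F ω * pw ω x (η ++ ρ) ∂iid μ else 0) ≤ A * stayMass μ e n := by
    rw [← tsum_stay_le (μ := μ) (m + 1) hη n, ← ENNReal.tsum_mul_left]
    refine ENNReal.tsum_le_tsum fun ρ => ?_
    split_ifs with h
    · rw [hsplit ρ h.2, ← lintegral_pw (μ := μ) z ρ]
      exact mul_le_mul_right (lintegral_mono fun ω =>
        mul_le_of_le_one_left zero_le (hiW_le_one m ω η x)) _
    · exact zero_le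
  calc c * _ ≤ (∫⁻ ω, hiW e m ω x η ∂iid μ) * (A * stayMass μ e n) := mul_le_mul' hc hsum
    _ = stayMass μ e n * (A * ∫⁻ ω, hiW e m ω x η ∂iid μ) := by ring

/-- Arrivals at `m + L` with at most `K` visits of `m` after at most `N` fresh steps. -/
def fewSet (e : Step d) (K N L : ℕ) (m : ℤ) (x : Site d) : Set (List (Step d)) :=
  {γ | Hit1 e (m + L) x γ ∧ ∃ η δ, γ = η ++ δ ∧ lev e (x + dsp η) = m ∧ cntHi e m x η ≤ N ∧
    cntAt e m (x + dsp η) δ ≤ K}

/-- A departure from level `m` upwards which is followed by `n` steps above `m`. -/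
def longSet (e : Step d) (i n : ℕ) (m : ℤ) (x : Site d) : Set (List (Step d)) :=
  {κ | ∃ η a ρ, κ = (η ++ [a]) ++ ρ ∧ lev e (x + dsp η) = m ∧
    lev e (x + dsp (η ++ [a])) = m + 1 ∧ cntHi e m x (η ++ [a]) = i ∧ ρ.length = n ∧
    Stay e (m + 1) (x + dsp (η ++ [a])) ρ}

/-- The departures upwards with exactly `i` fresh steps. -/
def upSet (e : Step d) (i : ℕ) (m : ℤ) (x : Site d) : Set (List (Step d)) :=
  {κ | ∃ η a, κ = η ++ [a] ∧ lev e (x + dsp η) = m ∧ lev e (x + dsp κ) = m + 1 ∧
    cntHi e m x κ = i}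

lemma upSet_prefix_free (i : ℕ) (m : ℤ) (x : Site d) (κ δ : List (Step d))
    (h : κ ∈ upSet e i m x) (h' : κ ++ δ ∈ upSet e i m x) : δ = [] := by
  obtain ⟨-, -, -, -, -, hi⟩ := h
  obtain ⟨η', a', he, hl, -, hi'⟩ := h'
  by_contra hne
  obtain ⟨δ₀, b, rfl⟩ := (List.eq_nil_or_concat' δ).resolve_left hne
  rw [← List.append_assoc] at he
  obtain ⟨he1, he2⟩ := List.append_inj' he rfl
  rw [← List.append_assoc, cntHi_append, cntHi_append, hi] at hi'
  have h1 : cntHi e m (x + dsp (κ ++ δ₀)) [b] = 1 := by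
    rw [he1]
    simp [cntHi, verts, hl]
  omega

lemma few_cases {K N n L : ℕ} {m : ℤ} {x : Site d} {γ : List (Step d)} (hL : n + 2 ≤ L)
    (h : γ ∈ fewSet e (K + 1) N L m x) :
    γ ∈ fewSet e K (N + n + 1) L m x ∨
      ∃ i ∈ Finset.range (N + 2), ∃ κ δ, γ = κ ++ δ ∧ κ ∈ longSet e i n m x := by
  obtain ⟨hhit, η, δ, rfl, hη, hN, hK⟩ := h
  cases δ with
  | nil =>
    have := hhit.2
    rw [List.append_nil] at this
    omega
  | cons a δ =>
    set y := x + dsp η
    have hend : lev e (y + vec a + dsp δ) = m + L := by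
      have := hhit.2
      rw [Proj.dsp_append, Proj.dsp_cons] at this
      convert this using 2
      simp only [y]; abel
    have hy' : lev e (y + vec a) = m + lev e (vec a) := by rw [lev_add, hη]
    have hK' : cntAt e m (y + vec a) δ ≤ K := by
      rw [cntAt_cons_self hη] at hK
      omega
    have hshift : y + vec a = x + dsp (η ++ [a]) := by
      simp [y, Proj.dsp_append, add_assoc]
    have hcnt : cntHi e m x (η ++ [a]) ≤ N + 1 := by
      rw [cntHi_append]
      have := cntHi_le_length (e := e) m (x + dsp η) [a]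
      simp at this
      omega
    have hgo : ∀ α β, δ = α ++ β → lev e (y + vec a + dsp α) = m →
        cntHi e m (y + vec a) α ≤ n → η ++ a :: δ ∈ fewSet e K (N + n + 1) L m x := by
      intro α β hδ hlev hα
      refine ⟨hhit, (η ++ [a]) ++ α, β, by simp [hδ], ?_, ?_, ?_⟩
      · rw [Proj.dsp_append, ← add_assoc, ← hshift, hlev]
      · rw [cntHi_append, ← hshift]
        omega
      · rw [hδ, cntAt_append] at hK'
        rw [Proj.dsp_append, ← add_assoc, ← hshift]
        omega
    rcases lt_trichotomy (lev e (y + vec a)) m with hlt | heq | hgt'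
    · obtain ⟨α, β, hδ, hαlt, hαend⟩ :=
        exists_climb δ (y + vec a) hlt.le (by rw [hend]; omega)
      exact Or.inl (hgo α β hδ hαend (by rw [cntHi_eq_zero hαlt]; omega))
    · exact Or.inl (hgo [] δ rfl (by simpa using heq) (by simp [cntHi, verts]))
    · have hup : lev e (y + vec a) = m + 1 := by
        have := abs_le.1 (abs_lev_vec_le e a)
        omega
      have hlen : n ≤ δ.length := by
        have h1 := (abs_le.1 (abs_lev_dsp_le (e := e) δ)).2
        rw [lev_add, hup] at hend
        omega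
      set ρ := δ.take n
      by_cases hst : Stay e (m + 1) (y + vec a) ρ
      · refine Or.inr ⟨cntHi e m x (η ++ [a]), Finset.mem_range.2 (by omega), (η ++ [a]) ++ ρ,
          δ.drop n, by simp [ρ], η, a, ρ, rfl, hη, ?_, rfl, by simp [ρ, hlen], ?_⟩
        · rw [← hshift, hup]
        · rw [← hshift]
          exact hst
      · obtain ⟨α, β, hρ, -, hαend⟩ := exists_descend ρ (e := e) (t := m) (y + vec a) (by omega) (by
          simp only [Stay, not_and_or, not_forall, not_le, exists_prop] at hst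
          rcases hst with ⟨v, hv, hvl⟩ | hvl
          · exact ⟨v, List.mem_append_left _ hv, by omega⟩
          · exact ⟨_, List.mem_append_right _ (List.mem_singleton_self _), by omega⟩)
        refine Or.inl (hgo α (β ++ δ.drop n) ?_ hαend ?_)
        · rw [← List.append_assoc, ← hρ]
          simp [ρ]
        · refine (cntHi_le_length _ _ _).trans ?_
          have : ρ.length ≤ n := by simp [ρ]
          rw [hρ, List.length_append] at this
          omega

/-- Uniformly in the past, few visits of a fresh level are rare. -/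
theorem exists_few (hell : ∀ᵐ q ∂μ, ∀ a : Step d, 0 < q.1 a)
    (hs : Tendsto (fun n => stayMass μ e n) atTop (𝓝 0)) (K : ℕ) :
    ∀ (N : ℕ) (ε : ℝ≥0∞), ε ≠ 0 → ∃ L₀ : ℕ, ∀ L, L₀ ≤ L → ∀ (x : Site d) (m : ℤ)
      (F : Env d → ℝ≥0∞) (S : Finset (Site d)), Measurable F → DepOn F S →
      (∀ v ∈ S, lev e v < m) →
      ∑' γ, (fewSet e K N L m x).indicator (fun γ => ∫⁻ ω, F ω * pw ω x γ ∂iid μ) γ
        ≤ ε * ∫⁻ ω, F ω ∂iid μ := by
  classical
  induction K with
  | zero =>
    intro N ε _
    refine ⟨1, fun L hL x m F S _ _ _ => ?_⟩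
    have hempty : ∀ γ, γ ∉ fewSet e 0 N L m x := by
      rintro γ ⟨hhit, η, δ, rfl, hη, -, hK⟩
      cases δ with
      | nil => have := hhit.2; rw [List.append_nil] at this; omega
      | cons a δ => rw [cntAt_cons_self hη] at hK; omega
    simp [indicator_of_notMem (hempty _)]
  | succ K ih =>
    intro N ε hε
    obtain ⟨c, hc0, hc1, hc⟩ := exists_hiW_lb (e := e) hell (N + 1)
    have hct : c ≠ ∞ := ne_top_of_le_ne_top ENNReal.one_ne_top hc1
    have hd : 0 < c * (ε / 2) / ((N + 2 : ℕ) : ℝ≥0∞) :=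
      ENNReal.div_pos (mul_ne_zero hc0 (ENNReal.div_pos hε (by simp)).ne') (ENNReal.natCast_ne_top _)
    obtain ⟨n, hn⟩ := (hs.eventually (gt_mem_nhds hd)).exists
    obtain ⟨L₁, hL₁⟩ := ih (N + n + 1) (ε / 2) (ENNReal.div_pos hε (by simp)).ne'
    refine ⟨max L₁ (n + 2), fun L hL x m F S hF hFS hS => ?_⟩
    set G : List (Step d) → ℝ≥0∞ := fun γ => ∫⁻ ω, F ω * pw ω x γ ∂iid μ
    set A : Set (List (Step d)) :=
      {κ | ∃ i ∈ Finset.range (N + 2), κ ∈ longSet e i n m x}
    set R : Set (List (Step d)) :=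
      {γ | Hit1 e (m + L) x γ ∧ ∃ κ δ, γ = κ ++ δ ∧ κ ∈ A}
    have hsub : ∀ γ, (fewSet e (K + 1) N L m x).indicator G γ ≤
        (fewSet e K (N + n + 1) L m x).indicator G γ + R.indicator G γ := by
      intro γ
      by_cases h : γ ∈ fewSet e (K + 1) N L m x
      · rw [indicator_of_mem h]
        rcases few_cases ((le_max_right _ _).trans hL) h with h1 | ⟨i, hi, κ, δ, he, hκ⟩
        · rw [indicator_of_mem h1]
          exact le_add_right le_rfl
        · rw [indicator_of_mem (show γ ∈ R from ⟨h.1, κ, δ, he, i, hi, hκ⟩)]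
          exact le_add_left le_rfl
      · simp [indicator_of_notMem h]
    have hlong : c * ∑' κ, A.indicator G κ ≤
        ((N + 2 : ℕ) : ℝ≥0∞) * stayMass μ e n * ∫⁻ ω, F ω ∂iid μ := by
      have h1 : ∑' κ, A.indicator G κ ≤ ∑ i ∈ Finset.range (N + 2),
          ∑' η, (upSet e i m x).indicator (fun η => ∑' ρ,
            if ρ.length = n ∧ Stay e (m + 1) (x + dsp η) ρ then G (η ++ ρ) else 0) η := by
        rw [← Summable.tsum_finsetSum fun _ _ => ENNReal.summable]
        refine (Proj.tsum_le_split _ (fun z => ∑ i ∈ Finset.range (N + 2),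
          (upSet e i m x).indicator (fun η => if z.2.length = n ∧
            Stay e (m + 1) (x + dsp η) z.2 then G (η ++ z.2) else 0) z.1) fun κ hκ => ?_).trans ?_
        · have hm : κ ∈ A := by
            by_contra h
            exact hκ (indicator_of_notMem h _)
          obtain ⟨i, hi, η, a, ρ, rfl, h1, h2, h3, h4, h5⟩ := hm
          refine ⟨η ++ [a], ρ, rfl, ?_⟩
          rw [indicator_of_mem (show (η ++ [a]) ++ ρ ∈ A from
            ⟨i, hi, η, a, ρ, rfl, h1, h2, h3, h4, h5⟩)]
          refine le_trans (le_of_eq ?_) (Finset.single_le_sum (fun _ _ => zero_le) hi)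
          rw [indicator_of_mem (show η ++ [a] ∈ upSet e i m x from ⟨η, a, rfl, h1, h2, h3⟩),
            if_pos ⟨h4, h5⟩]
        · rw [ENNReal.tsum_prod']
          refine ENNReal.tsum_le_tsum fun η => ?_
          rw [Summable.tsum_finsetSum fun _ _ => ENNReal.summable]
          refine Finset.sum_le_sum fun i _ => ?_
          by_cases h : η ∈ upSet e i m x <;> simp [h]
      refine (mul_le_mul_right h1 c).trans ?_
      rw [Finset.mul_sum]
      refine (Finset.sum_le_sum (g := fun _ => stayMass μ e n * ∫⁻ ω, F ω ∂iid μ)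
        fun i hi => ?_).trans (le_of_eq ?_)
      · rw [← ENNReal.tsum_mul_left]
        refine le_trans ?_ (mul_le_mul_right (tsum_free_le hF x _ (upSet_prefix_free (e := e) i m x))
          (stayMass μ e n))
        rw [← ENNReal.tsum_mul_left]
        refine ENNReal.tsum_le_tsum fun η => ?_
        by_cases h : η ∈ upSet e i m x
        · rw [indicator_of_mem h, indicator_of_mem h]
          obtain ⟨η₀, a, rfl, -, h2, h3⟩ := h
          refine tsum_long_le hF hFS hS x (η₀ ++ [a]) h2 n (hc m x _ ?_)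
          have := Finset.mem_range.1 hi
          omega
        · simp [indicator_of_notMem h]
      · simp [Finset.sum_const, mul_assoc]
    have hR : ∑' γ, R.indicator G γ ≤ ε / 2 * ∫⁻ ω, F ω ∂iid μ := by
      refine (tsum_cut_le hF x R A (fun γ δ h h' => hit1_prefix_free h.1 h'.1)
        fun γ hγ => hγ.2).trans ?_
      have h3 : ((N + 2 : ℕ) : ℝ≥0∞) * stayMass μ e n ≤ c * (ε / 2) := by
        rw [mul_comm]
        exact (ENNReal.le_div_iff_mul_le (Or.inl (by norm_num))
          (Or.inl (ENNReal.natCast_ne_top _))).1 hn.le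
      have h2 := hlong.trans (mul_le_mul_left h3 _)
      rw [mul_assoc] at h2
      exact (ENNReal.mul_le_mul_iff_right hc0 hct).1 h2
    refine (ENNReal.tsum_le_tsum hsub).trans ?_
    rw [ENNReal.tsum_add]
    refine (add_le_add (hL₁ L ((le_max_left _ _).trans hL) x m F S hF hFS hS) hR).trans (le_of_eq ?_)
    rw [← add_mul, ENNReal.add_halves]

end Vale.Agent.P147.Bal
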