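import Vale.Agent.P147.Bal.Oscillate.Few

/-!
# Many levels with few visits are exponentially unlikely
-/

open MeasureTheory Set Filter Topology
open scoped ENNReal

namespace Vale.Agent.P147.Bal

open Vale.Agent.P147.Proj (dsp verts wt trail iid DepOn)

variable {d : ℕ} {e : Step d} {μ : Measure (Row d)}

lemma sum_cntAt_le (T : Finset ℤ) (x : Site d) (γ : List (Step d)) :
    ∑ t ∈ T, cntAt e t x γ ≤ γ.length := by
  induction γ generalizing x with
  | nil => simp [cntAt, verts]
  | cons a γ ih =>
    have e1 : ∀ t, cntAt e t x (a :: γ) = cntAt e t (x + vec a) γ + if lev e x = t then 1 else 0 := by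
      intro t
      by_cases h : lev e x = t <;> simp [cntAt, verts, h]
    simp only [e1, Finset.sum_add_distrib, Finset.sum_ite_eq, List.length_cons]
    refine add_le_add (ih _) ?_
    split_ifs <;> omega

open Classical in
/-- The number of the levels `j + i L`, `i < I`, with at most `K` visits. -/
noncomputable def score (e : Step d) (K L j I : ℕ) (γ : List (Step d)) : ℕ :=
  ((Finset.range I).filter fun i : ℕ => cntAt e ((j : ℤ) + (i : ℤ) * L) 0 γ ≤ K).card

lemma score_anti (K L j I : ℕ) (η δ : List (Step d)) :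
    score e K L j I (η ++ δ) ≤ score e K L j I η := by
  classical
  refine Finset.card_le_card fun i hi => ?_
  simp only [Finset.mem_filter, cntAt_append] at hi ⊢
  exact ⟨hi.1, (Nat.le_add_right _ _).trans hi.2⟩

lemma score_succ (K L j I : ℕ) (γ : List (Step d)) :
    score e K L j (I + 1) γ =
      score e K L j I γ + if cntAt e ((j : ℤ) + I * L) 0 γ ≤ K then 1 else 0 := by
  classical
  simp only [score, Finset.range_add_one, Finset.filter_insert]
  split_ifs with h
  · rw [Finset.card_insert_of_notMem (by simp)]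
  · rfl

variable [IsProbabilityMeasure μ]

open Classical in
/-- The exponential moment of the score at the first arrival at the top level. -/
theorem score_moment {K L : ℕ} {ε : ℝ≥0∞}
    (hfew : ∀ (x : Site d) (m : ℤ) (F : Env d → ℝ≥0∞) (S : Finset (Site d)), Measurable F →
      DepOn F S → (∀ v ∈ S, lev e v < m) →
      ∑' γ, (fewSet e K 0 L m x).indicator (fun γ => ∫⁻ ω, F ω * pw ω x γ ∂iid μ) γ
        ≤ ε * ∫⁻ ω, F ω ∂iid μ)
    (j : ℕ) : ∀ I : ℕ, ∑' γ, (if Hit1 e ((j : ℤ) + I * L) 0 γ then
      4 ^ score e K L j I γ * cw μ γ else 0) ≤ (1 + 3 * ε) ^ I := by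
  intro I
  induction I with
  | zero =>
    simp only [score, Finset.range_zero, Finset.filter_empty, Finset.card_empty, pow_zero, one_mul]
    have h := tsum_free_le (μ := μ) (F := fun _ => (1 : ℝ≥0∞)) measurable_const (0 : Site d)
      {γ | Hit1 e ((j : ℤ) + (0 : ℕ) * L) 0 γ}
      (fun γ δ h h' => hit1_prefix_free (e := e) h h')
    simp only [lintegral_const, measure_univ, mul_one] at h
    refine le_trans (le_of_eq (tsum_congr fun γ => ?_)) h
    split_ifs with hh
    · rw [indicator_of_mem (show γ ∈ {γ | Hit1 e ((j : ℤ) + (0 : ℕ) * L) 0 γ} from hh)]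
      simp [cw]
    · rw [indicator_of_notMem (show γ ∉ {γ | Hit1 e ((j : ℤ) + (0 : ℕ) * L) 0 γ} from hh)]
  | succ I ih =>
    set m : ℤ := (j : ℤ) + I * L with hm
    have hT : (j : ℤ) + (I + 1 : ℕ) * L = m + L := by rw [hm]; push_cast; ring
    rw [hT]
    set G : List (Step d) → List (Step d) → ℝ≥0∞ := fun η δ =>
      ∫⁻ ω, pw ω 0 η * pw ω (dsp η) δ ∂iid μ
    refine (Proj.tsum_le_split _ (fun z => if Hit1 e m 0 z.1 then 4 ^ score e K L j I z.1 *
      ({δ | Hit1 e (m + L) (dsp z.1) δ}.indicator (G z.1) z.2 +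
        3 * (fewSet e K 0 L m (dsp z.1)).indicator (G z.1) z.2) else 0) fun γ hγ => ?_).trans ?_
    · obtain ⟨hhit, -⟩ := ite_ne_right_iff.1 hγ
      obtain ⟨η, δ, rfl, h1, h2⟩ := exists_climb γ (t := m) (0 : Site d)
        (by simp only [lev_zero, hm]; positivity) (by rw [hhit.2]; omega)
      have h2' : lev e (dsp η) = m := by simpa using h2
      have hδ : Hit1 e (m + L) (dsp η) δ := by
        refine ⟨fun v hv => hhit.1 v ?_, ?_⟩
        · rw [verts_append, zero_add]
          exact List.mem_append_right _ hv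
        · have := hhit.2
          rwa [zero_add, Proj.dsp_append] at this
      refine ⟨η, δ, rfl, ?_⟩
      rw [if_pos hhit, if_pos (show Hit1 e m 0 η from ⟨h1, h2⟩),
        indicator_of_mem (show δ ∈ {δ | Hit1 e (m + L) (dsp η) δ} from hδ)]
      have hcw : cw μ (η ++ δ) = G η δ := by
        simp only [cw, G, pw_append, zero_add]
      rw [hcw, score_succ]
      have hmono : (4 : ℝ≥0∞) ^ score e K L j I (η ++ δ) ≤ 4 ^ score e K L j I η :=
        pow_le_pow_right₀ (by norm_num) (score_anti K L j I η δ)
      by_cases hg : cntAt e ((j : ℤ) + I * L) 0 (η ++ δ) ≤ K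
      · rw [if_pos hg, pow_succ]
        have hf : δ ∈ fewSet e K 0 L m (dsp η) := by
          refine ⟨hδ, [], δ, rfl, by simp [h2'], by simp [cntHi, verts], ?_⟩
          rw [cntAt_append, zero_add] at hg
          simp only [Proj.dsp_nil, add_zero, hm]
          omega
        rw [indicator_of_mem hf]
        calc 4 ^ score e K L j I (η ++ δ) * 4 * G η δ
            ≤ 4 ^ score e K L j I η * 4 * G η δ := by gcongr
          _ = 4 ^ score e K L j I η * (G η δ + 3 * G η δ) := by ring
      · rw [if_neg hg, add_zero]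
        exact mul_le_mul' hmono (le_add_right le_rfl)
    · rw [ENNReal.tsum_prod', pow_succ']
      refine le_trans (ENNReal.tsum_le_tsum fun η => ?_)
        (le_trans (le_of_eq ENNReal.tsum_mul_left) (mul_le_mul_right ih (1 + 3 * ε)))
      by_cases h : Hit1 e m 0 η
      · simp only [if_pos h]
        rw [ENNReal.tsum_mul_left, ENNReal.tsum_add, ENNReal.tsum_mul_left]
        have a1 := tsum_free_le (μ := μ) (measurable_pw 0 η) (dsp η)
          {δ | Hit1 e (m + L) (dsp η) δ} (fun γ δ h h' => hit1_prefix_free (e := e) h h')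
        have a2 := hfew (dsp η) m (fun ω => pw ω 0 η) (verts 0 η).toFinset (measurable_pw 0 η)
          (Proj.depOn_wt pq 0 η) (fun v hv => h.1 v (List.mem_toFinset.1 hv))
        calc 4 ^ score e K L j I η * _
            ≤ 4 ^ score e K L j I η * (cw μ η + 3 * (ε * cw μ η)) :=
              mul_le_mul_right (add_le_add a1 (mul_le_mul_right a2 _)) _
          _ = (1 + 3 * ε) * (4 ^ score e K L j I η * cw μ η) := by ring
      · simp [h]

end Vale.Agent.P147.Bal
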